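import Vale.Agent.P042.R2.H757.Spec

set_option autoImplicit false

/-!
P042.MultiplicativeStatistics, row MER: crude Mertens bound from the primorial.
-/

namespace Vale.Agent.P042.H812

open Finset Vale.Agent.P042.H757

/-- primes in a dyadic block -/
def Blk (j : ℕ) : Finset ℕ := (Ioc (2 ^ j) (2 ^ (j + 1))).filter Nat.Prime

theorem card_blk (j : ℕ) : j * (Blk j).card ≤ 2 ^ (j + 2) := by
  have h1 : (2 ^ j) ^ (Blk j).card ≤ ∏ p ∈ Blk j, p := by
    rw [← Finset.prod_const]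
    apply Finset.prod_le_prod'
    intro p hp
    simp only [Blk, mem_filter, mem_Ioc] at hp
    exact hp.1.1.le
  have h2 : ∏ p ∈ Blk j, p ≤ primorial (2 ^ (j + 1)) := by
    unfold primorial
    apply Finset.prod_le_prod_of_subset_of_one_le'
    · intro p hp
      simp only [Blk, mem_filter, mem_Ioc] at hp
      simp only [mem_filter, mem_range]
      exact ⟨by omega, hp.2⟩
    · intro p hp _
      exact (mem_filter.1 hp).2.one_lt.le
  have h3 := primorial_le_four_pow (2 ^ (j + 1))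
  have h4 : (2 : ℕ) ^ (j * (Blk j).card) ≤ 2 ^ (2 ^ (j + 2)) := by
    calc (2 : ℕ) ^ (j * (Blk j).card) = (2 ^ j) ^ (Blk j).card := by rw [pow_mul]
      _ ≤ 4 ^ (2 ^ (j + 1)) := h1.trans (h2.trans h3)
      _ = 2 ^ (2 ^ (j + 2)) := by
        rw [show (4 : ℕ) = 2 ^ 2 by norm_num, ← pow_mul]
        congr 1
        ring
  exact (Nat.pow_le_pow_iff_right (by norm_num)).1 h4

theorem sum_blk (j : ℕ) (hj : 1 ≤ j) : ∑ p ∈ Blk j, (1 : ℝ) / p ≤ 4 / j := by
  have hj' : (0 : ℝ) < j := by exact_mod_cast hj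
  have h1 : ∑ p ∈ Blk j, (1 : ℝ) / p ≤ ∑ p ∈ Blk j, (1 : ℝ) / 2 ^ j := by
    apply Finset.sum_le_sum
    intro p hp
    simp only [Blk, mem_filter, mem_Ioc] at hp
    apply one_div_le_one_div_of_le (by positivity)
    exact_mod_cast hp.1.1.le
  rw [Finset.sum_const, nsmul_eq_mul] at h1
  refine h1.trans ?_
  have h2 : (j : ℝ) * (Blk j).card ≤ 2 ^ (j + 2) := by exact_mod_cast card_blk j
  rw [mul_one_div, div_le_div_iff₀ (by positivity) hj']
  calc ((Blk j).card : ℝ) * j = j * (Blk j).card := by ring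
    _ ≤ 2 ^ (j + 2) := h2
    _ = 4 * 2 ^ j := by ring

theorem sum_two_pow (m : ℕ) :
    ∑ p ∈ (Icc 1 (2 ^ (m + 1))).filter Nat.Prime, (1 : ℝ) / p ≤ 1 / 2 + 4 * (harmonic m : ℝ) := by
  induction m with
  | zero =>
    have : (Icc 1 (2 ^ (0 + 1))).filter Nat.Prime = {2} := by decide
    rw [this]
    simp
  | succ m ih =>
    have hs : (Icc 1 (2 ^ (m + 1 + 1))).filter Nat.Prime =
        (Icc 1 (2 ^ (m + 1))).filter Nat.Prime ∪ Blk (m + 1) := by
      ext p
      simp only [Blk, mem_union, mem_filter, mem_Icc, mem_Ioc]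
      have : 2 ^ (m + 1) ≤ 2 ^ (m + 1 + 1) := Nat.pow_le_pow_right (by norm_num) (by omega)
      constructor
      · rintro ⟨⟨h1, h2⟩, h3⟩
        by_cases h : p ≤ 2 ^ (m + 1)
        · exact Or.inl ⟨⟨h1, h⟩, h3⟩
        · exact Or.inr ⟨⟨by omega, h2⟩, h3⟩
      · rintro (⟨⟨h1, h2⟩, h3⟩ | ⟨⟨h1, h2⟩, h3⟩)
        · exact ⟨⟨h1, h2.trans this⟩, h3⟩
        · exact ⟨⟨h3.one_lt.le, h2⟩, h3⟩
    have hd : Disjoint ((Icc 1 (2 ^ (m + 1))).filter Nat.Prime) (Blk (m + 1)) := by
      rw [Finset.disjoint_left]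
      intro p hp hq
      simp only [Blk, mem_filter, mem_Icc, mem_Ioc] at hp hq
      omega
    rw [hs, Finset.sum_union hd, harmonic_succ]
    have h := sum_blk (m + 1) (by omega)
    push_cast at h ⊢
    have e : (4 : ℝ) / (m + 1) = 4 * (m + 1 : ℝ)⁻¹ := by rw [div_eq_mul_inv]
    rw [e] at h
    linarith

theorem rowMer : StMer := by
  refine ⟨13, by norm_num, ?_⟩
  intro N hN
  set m := Nat.log 2 N with hm
  have hNr : (3 : ℝ) ≤ N := by exact_mod_cast hN
  have hlog1 : 1 < Real.log N := by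
    have h1 : Real.log (Real.exp 1) < Real.log N := by
      apply Real.log_lt_log (Real.exp_pos 1)
      exact lt_of_lt_of_le (lt_trans Real.exp_one_lt_d9 (by norm_num)) hNr
    rwa [Real.log_exp] at h1
  have hll : 0 < Real.log (Real.log N) := Real.log_pos hlog1
  have hsub : (Icc 1 N).filter Nat.Prime ⊆ (Icc 1 (2 ^ (m + 1))).filter Nat.Prime := by
    intro p hp
    simp only [mem_filter, mem_Icc] at hp ⊢
    have : N < 2 ^ (m + 1) := Nat.lt_pow_succ_log_self (by norm_num) N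
    exact ⟨⟨hp.1.1, by omega⟩, hp.2⟩
  have h1 : ∑ p ∈ (Icc 1 N).filter Nat.Prime, (1 : ℝ) / p ≤
      ∑ p ∈ (Icc 1 (2 ^ (m + 1))).filter Nat.Prime, (1 : ℝ) / p :=
    Finset.sum_le_sum_of_subset_of_nonneg hsub (fun p _ _ => by positivity)
  have h2 := sum_two_pow m
  have h3 : (harmonic m : ℝ) ≤ 1 + Real.log m := harmonic_le_one_add_log m
  have hm1 : 1 ≤ m := by
    rw [hm]
    exact Nat.log_pos (by norm_num) (by omega)
  have h4 : (m : ℝ) ≤ 3 * Real.log N := by
    have hp : 2 ^ m ≤ N := Nat.pow_log_le_self 2 (by omega)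
    have hp' : (2 : ℝ) ^ m ≤ N := by exact_mod_cast hp
    have h5 : (m : ℝ) * Real.log 2 ≤ Real.log N := by
      rw [← Real.log_pow]
      exact Real.log_le_log (by positivity) hp'
    have h6 := Real.log_two_gt_d9
    nlinarith
  have h7 : Real.log m ≤ 2 + Real.log (Real.log N) := by
    have hmp : (0 : ℝ) < m := by exact_mod_cast hm1
    have h8 : Real.log m ≤ Real.log (3 * Real.log N) := Real.log_le_log hmp h4
    rw [Real.log_mul (by norm_num) (by positivity)] at h8
    have h9 : Real.log 3 ≤ 2 := by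
      rw [Real.log_le_iff_le_exp (by norm_num)]
      have := Real.add_one_le_exp (2 : ℝ)
      linarith
    linarith
  linarith

end Vale.Agent.P042.H812
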