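import Vale.Agent.P042.R2.H757.Spec

set_option autoImplicit false

/-!
P042.MultiplicativeStatistics, row NUM.
-/

namespace Vale.Agent.P042.H812

open Vale.Agent.P042.H757

theorem young (A ε γ : ℝ) (hA : 0 < A) (hε : 0 < ε) (h0 : 0 < γ) (h1 : γ < 1) :
    ∃ B : ℝ, ∀ L : ℝ, 1 ≤ L → A * L ^ γ ≤ ε * L + B := by
  set L0 : ℝ := (A / ε) ^ (1 / (1 - γ)) with hL0
  have hAe : 0 < A / ε := div_pos hA hε
  have hL0p : 0 < L0 := Real.rpow_pos_of_pos hAe _
  refine ⟨A * L0 ^ γ, ?_⟩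
  intro L hL
  have hLp : 0 < L := by linarith
  rcases le_total L L0 with h | h
  · have h2 : L ^ γ ≤ L0 ^ γ := Real.rpow_le_rpow hLp.le h h0.le
    have h3 : A * L ^ γ ≤ A * L0 ^ γ := mul_le_mul_of_nonneg_left h2 hA.le
    have h4 : 0 ≤ ε * L := by positivity
    linarith
  · have h2 : L0 ^ (1 - γ) ≤ L ^ (1 - γ) := Real.rpow_le_rpow hL0p.le h (by linarith)
    have h3 : L0 ^ (1 - γ) = A / ε := by
      rw [hL0, ← Real.rpow_mul hAe.le, one_div, inv_mul_cancel₀ (by linarith), Real.rpow_one]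
    rw [h3, div_le_iff₀ hε] at h2
    have h4 : A * L ^ γ ≤ (L ^ (1 - γ) * ε) * L ^ γ :=
      mul_le_mul_of_nonneg_right h2 (Real.rpow_nonneg hLp.le _)
    have h5 : (L ^ (1 - γ) * ε) * L ^ γ = ε * L := by
      calc (L ^ (1 - γ) * ε) * L ^ γ = ε * (L ^ (1 - γ) * L ^ γ) := by ring
        _ = ε * L := by
          rw [← Real.rpow_add hLp]
          norm_num
    have h6 : 0 ≤ A * L0 ^ γ := by positivity
    linarith

theorem rowNum : StNum := by
  intro k hk K ε hK hε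
  have hk' : (2 : ℝ) ≤ k := by exact_mod_cast hk
  set α : ℝ := (2 * k + 1 : ℝ) / (2 * k + 2) with hα
  have hden : (0 : ℝ) < 2 * k + 2 := by linarith
  have hα0 : 0 < α := by
    rw [hα]; positivity
  have hα1 : α < 1 := by
    rw [hα, div_lt_one hden]; linarith
  set β : ℝ := (1 - α) / 2 with hβ
  have hβ0 : 0 < β := by rw [hβ]; linarith
  have hγ : α + β < 1 := by rw [hβ]; linarith
  obtain ⟨B, hB⟩ := young (K * 6 * (1 + 1 / β)) ε (α + β) (by positivity) hε (by linarith) hγ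
  refine ⟨Real.exp B, Real.exp_pos B, ?_⟩
  intro N hN
  have hNr : (3 : ℝ) ≤ N := by exact_mod_cast hN
  have hNp : (0 : ℝ) < N := by linarith
  have hlog1 : 1 < Real.log N := by
    have h1 : Real.log (Real.exp 1) < Real.log N := by
      apply Real.log_lt_log (Real.exp_pos 1)
      exact lt_of_lt_of_le (lt_trans Real.exp_one_lt_d9 (by norm_num)) hNr
    rwa [Real.log_exp] at h1
  set L : ℝ := Real.log N with hL
  have hLp : 0 < L := by linarith
  have h1 := hB L hlog1.le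
  have h2 : Real.log L ≤ L ^ β / β := Real.log_le_rpow_div hLp.le hβ0
  have ha1 : 1 ≤ L ^ α := Real.one_le_rpow hlog1.le hα0.le
  have hb1 : 1 ≤ L ^ β := Real.one_le_rpow hlog1.le hβ0.le
  have h3 : L ^ α + 5 ≤ 6 * L ^ α := by linarith
  have h4 : 1 + Real.log L ≤ (1 + 1 / β) * L ^ β := by
    have : (1 + 1 / β) * L ^ β = L ^ β + L ^ β / β := by ring
    rw [this]; linarith
  have hll : 0 ≤ 1 + Real.log L := by
    have := Real.log_nonneg hlog1.le
    linarith
  have h5 : (L ^ α + 5) * (1 + Real.log L) ≤ (6 * L ^ α) * ((1 + 1 / β) * L ^ β) := by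
    apply mul_le_mul h3 h4 hll
    positivity
  have h6 : K * (L ^ α + 5) * (1 + Real.log L) ≤ ε * L + B := by
    calc K * (L ^ α + 5) * (1 + Real.log L) = K * ((L ^ α + 5) * (1 + Real.log L)) := by ring
      _ ≤ K * ((6 * L ^ α) * ((1 + 1 / β) * L ^ β)) := mul_le_mul_of_nonneg_left h5 hK.le
      _ = K * 6 * (1 + 1 / β) * (L ^ α * L ^ β) := by ring
      _ = K * 6 * (1 + 1 / β) * L ^ (α + β) := by rw [← Real.rpow_add hLp]
      _ ≤ ε * L + B := h1
  calc Real.exp (K * (L ^ α + 5) * (1 + Real.log L)) ≤ Real.exp (ε * L + B) :=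
        Real.exp_le_exp.2 h6
    _ = Real.exp B * (N : ℝ) ^ ε := by
      rw [Real.exp_add, Real.rpow_def_of_pos hNp, mul_comm]
      congr 2
      rw [mul_comm]

end Vale.Agent.P042.H812
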